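import Mathlib
import Vale.Agent.Lib.P162.Defs
import Vale.Agent.Lib.P162.RDefs
import Vale.Agent.Lib.P162.CVDefs
import Vale.Agent.Lib.P162.helper36.MoveInj
import Vale.Agent.Lib.P162.helper34.StepNewFree
import Vale.Agent.Lib.P162.helper93.Gap
import Vale.Agent.Lib.P162.helper95.KmatBasic

/-!
P162, pool job CV7 (helper38, third copy): off partner states the two walkers of the two-walker
kernel move as two cards of the chain of j + 2 cards; partners merge with probability at least
one half.
-/

namespace Vale.Agent.Lib.P162.H38CV7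

open Finset BigOperators
open Vale.Agent.Lib.P162

/-- Partners get opposite bits: their images add up to `4 p + 1`. -/
theorem partner_sum (h : ℕ) [NeZero h] (c : ZMod h → Bool) (p : ZMod (2 * h)) :
    move h c (p + (h : ZMod (2 * h))) + move h c p = 4 * p + 1 := by
  have h2 : (h : ZMod (2 * h)) + h = 0 := H36.half_add_half h
  rw [defs_aux_move, defs_aux_move, H93.H93_partner_bits]
  generalize xor (decide (h ≤ p.val)) (c (ZMod.cast p)) = X
  cases X
  · show 2 * (p + (h : ZMod (2 * h))) + 1 + (2 * p + 0) = 4 * p + 1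
    linear_combination h2
  · show 2 * (p + (h : ZMod (2 * h))) + 0 + (2 * p + 1) = 4 * p + 1
    linear_combination h2

/-- The new card is the partner of an old card: its move is forced. -/
theorem forced (h j : ℕ) [NeZero h] (z y : Fin (j + 1) → ZMod (2 * h)) (i : Fin j)
    (hz : z 0 = z i.succ + (h : ZMod (2 * h))) :
    stepProb h (j + 1) z y
      = (if y 0 = 4 * z i.succ + 1 - y i.succ then (1 : ℝ) else 0)
        * stepProb h j (Fin.tail z) (Fin.tail y) := by
  rw [defs_aux_stepProb, defs_aux_stepProb]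
  have key : ∀ c : ZMod h → Bool, (∀ i' : Fin j, move h c (Fin.tail z i') = Fin.tail y i') →
      (move h c (z 0) = y 0 ↔ y 0 = 4 * z i.succ + 1 - y i.succ) := by
    intro c hc
    have h1 : move h c (z i.succ) = y i.succ := hc i
    have h2 := partner_sum h c (z i.succ)
    rw [← hz, h1] at h2
    constructor
    · intro h3
      rw [← h3]
      linear_combination h2
    · intro h3
      rw [h3]
      linear_combination h2
  by_cases hind : y 0 = 4 * z i.succ + 1 - y i.succ
  · rw [if_pos hind, one_mul]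
    refine congrArg (fun n : ℕ => (n : ℝ) / 2 ^ h) (congrArg Finset.card ?_)
    ext c
    rw [Finset.mem_filter, Finset.mem_filter]
    constructor
    · rintro ⟨hu, hc⟩
      exact ⟨hu, fun i' => hc i'.succ⟩
    · rintro ⟨hu, hc⟩
      refine ⟨hu, fun i' => ?_⟩
      refine Fin.cases ?_ (fun i'' => ?_) i'
      · exact (key c hc).2 hind
      · exact hc i''
  · rw [if_neg hind, zero_mul]
    have hempty : (univ.filter fun c : ZMod h → Bool => ∀ i', move h c (z i') = y i') = ∅ := by
      refine Finset.filter_eq_empty_iff.2 fun c _ hc => ?_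
      exact hind ((key c (fun i' => hc i'.succ)).1 (hc 0))
    rw [hempty, Finset.card_empty, Nat.cast_zero, zero_div]

theorem stepProb_tail_le (h j : ℕ) [NeZero h] (z y : Fin (j + 1) → ZMod (2 * h)) :
    stepProb h (j + 1) z y ≤ stepProb h j (Fin.tail z) (Fin.tail y) := by
  rw [defs_aux_stepProb, defs_aux_stepProb]
  refine div_le_div_of_nonneg_right ?_ (by positivity)
  refine Nat.cast_le.2 (Finset.card_le_card fun c hc => ?_)
  rw [Finset.mem_filter] at hc ⊢
  exact ⟨hc.1, fun i => hc.2 i.succ⟩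

theorem not_newBad_of (h j : ℕ) [NeZero h] (z : Fin (j + 1) → ZMod (2 * h))
    (hz : ∀ i : Fin j, z i.succ ≠ z 0 ∧ z i.succ ≠ z 0 + (h : ZMod (2 * h))) :
    ¬ newBad h j z := by
  rintro ⟨i, hi⟩
  rcases (H36.cast_eq_iff h (z 0) (z i.succ)).1 hi with h1 | h1
  · exact (hz i).1 h1
  · exact (hz i).2 h1

theorem W_nonneg (h : ℕ) [NeZero h] (p q : ZMod (2 * h)) : 0 ≤ Wmat h p q := by
  rw [defs_aux_Wmat]
  split_ifs <;> norm_num

theorem W_ge_half (h : ℕ) [NeZero h] (p q : ZMod (2 * h)) (hq : q = 2 * p ∨ q = 2 * p + 1) :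
    (1 / 2 : ℝ) ≤ Wmat h p q := by
  rw [defs_aux_Wmat]
  rcases hq with hq | hq
  · rw [if_pos hq]
    split_ifs <;> norm_num
  · rw [if_pos hq]
    split_ifs <;> norm_num

theorem W_ne_zero (h : ℕ) [NeZero h] (p q : ZMod (2 * h)) (hW : Wmat h p q ≠ 0) :
    q = 2 * p ∨ q = 2 * p + 1 := by
  by_contra hcon
  rw [not_or] at hcon
  apply hW
  rw [defs_aux_Wmat, if_neg hcon.1, if_neg hcon.2, add_zero]

theorem W_sq (h : ℕ) [NeZero h] (p q : ZMod (2 * h)) :
    (1 / 2 : ℝ) * Wmat h p q ≤ Wmat h p q * Wmat h p q := by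
  by_cases hW : Wmat h p q = 0
  · rw [hW]
    norm_num
  · have h1 := W_ge_half h p q (W_ne_zero h p q hW)
    have h0 := W_nonneg h p q
    exact mul_le_mul_of_nonneg_right h1 h0

theorem W_sum (h : ℕ) [NeZero h] (p : ZMod (2 * h)) : ∑ q, Wmat h p q = 1 := by
  show ∑ q : ZMod (2 * h), ((if q = 2 * p then (1 / 2 : ℝ) else 0)
    + (if q = 2 * p + 1 then (1 / 2 : ℝ) else 0)) = 1
  rw [Finset.sum_add_distrib, Finset.sum_ite_eq', Finset.sum_ite_eq',
    if_pos (Finset.mem_univ _), if_pos (Finset.mem_univ _)]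
  norm_num

theorem W_partner (h : ℕ) [NeZero h] (a b q : ZMod (2 * h)) (hab : 2 * b = 2 * a) :
    Wmat h b q = Wmat h a q := by
  rw [defs_aux_Wmat, defs_aux_Wmat, hab]

theorem Q_ge_K (h j : ℕ) [NeZero h] (u y : Fin (j + 2) → ZMod (2 * h))
    (hu : Function.Injective u) (hy : y 0 ≠ y 1) :
    (if u 1 = u 0 + (h : ZMod (2 * h)) then (1 / 2 : ℝ) else 1) * Kmat h (j + 2) u y
      ≤ Qmat h j u y := by
  have _hy := hy
  have hh : (h : ZMod (2 * h)) + h = 0 := H36.half_add_half h
  have hQ : Qmat h j u y = stepProb h (j + 1) (dropTwo u) (dropTwo y)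
      * stepProb h (j + 1) (Fin.tail u) (Fin.tail y)
      / stepProb h j (Fin.tail (Fin.tail u)) (Fin.tail (Fin.tail y)) := rfl
  have hK : Kmat h (j + 2) u y = stepProb h (j + 2) u y := rfl
  rw [hQ, hK]
  have hK0 : 0 ≤ stepProb h j (Fin.tail (Fin.tail u)) (Fin.tail (Fin.tail y)) :=
    H95.stepProb_nonneg h j _ _
  have hK2 : 0 ≤ stepProb h (j + 2) u y := H95.stepProb_nonneg h (j + 2) _ _
  -- injectivity
  have h01 : u 1 ≠ u 0 := fun e => Fin.zero_ne_one (hu e).symm
  have h0x : ∀ i : Fin j, u i.succ.succ ≠ u 0 := fun i e => Fin.succ_ne_zero _ (hu e)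
  have h1x : ∀ i : Fin j, u i.succ.succ ≠ u 1 := fun i e => by
    have e' : i.succ.succ = (0 : Fin (j + 1)).succ := hu e
    exact Fin.succ_ne_zero i (Fin.succ_injective _ e')
  by_cases hp : u 1 = u 0 + (h : ZMod (2 * h))
  · -- partners
    rw [if_pos hp]
    have hp' : u 0 = u 1 + (h : ZMod (2 * h)) := by
      rw [hp]
      linear_combination -hh
    have h2 : 2 * u 1 = 2 * u 0 := by
      rw [hp]
      linear_combination hh
    have nbA : ¬ newBad h j (dropTwo u) := by
      refine not_newBad_of h j (dropTwo u) fun i => ⟨h0x i, ?_⟩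
      show u i.succ.succ ≠ u 0 + (h : ZMod (2 * h))
      rw [← hp]
      exact h1x i
    have nbB : ¬ newBad h j (Fin.tail u) := by
      refine not_newBad_of h j (Fin.tail u) fun i => ⟨h1x i, ?_⟩
      show u i.succ.succ ≠ u 1 + (h : ZMod (2 * h))
      rw [← hp']
      exact h0x i
    have eA : stepProb h (j + 1) (dropTwo u) (dropTwo y)
        = Wmat h (u 0) (y 0)
          * stepProb h j (Fin.tail (Fin.tail u)) (Fin.tail (Fin.tail y)) :=
      H34.step_new_free h j (dropTwo u) (dropTwo y) nbA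
    have eB : stepProb h (j + 1) (Fin.tail u) (Fin.tail y)
        = Wmat h (u 1) (y 1)
          * stepProb h j (Fin.tail (Fin.tail u)) (Fin.tail (Fin.tail y)) :=
      H34.step_new_free h j (Fin.tail u) (Fin.tail y) nbB
    have eF : stepProb h (j + 2) u y
        = (if y 0 = 4 * u 1 + 1 - y 1 then (1 : ℝ) else 0)
          * stepProb h (j + 1) (Fin.tail u) (Fin.tail y) :=
      forced h (j + 1) u y 0 hp'
    have hWa := W_nonneg h (u 0) (y 0)
    have hWb := W_nonneg h (u 1) (y 1)
    have hkey : (1 / 2 : ℝ) * ((if y 0 = 4 * u 1 + 1 - y 1 then (1 : ℝ) else 0)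
        * Wmat h (u 1) (y 1)) ≤ Wmat h (u 0) (y 0) * Wmat h (u 1) (y 1) := by
      by_cases hind : y 0 = 4 * u 1 + 1 - y 1
      · rw [if_pos hind, one_mul]
        by_cases hWb0 : Wmat h (u 1) (y 1) = 0
        · rw [hWb0, mul_zero, mul_zero]
        · have hy1 := W_ne_zero h (u 1) (y 1) hWb0
          have hy0 : y 0 = 2 * u 0 ∨ y 0 = 2 * u 0 + 1 := by
            rcases hy1 with e | e
            · right
              rw [hind, e]
              linear_combination h2
            · left
              rw [hind, e]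
              linear_combination h2
          exact mul_le_mul_of_nonneg_right (W_ge_half h (u 0) (y 0) hy0) hWb
      · rw [if_neg hind, zero_mul, mul_zero]
        exact mul_nonneg hWa hWb
    rw [eF, eA, eB]
    generalize stepProb h j (Fin.tail (Fin.tail u)) (Fin.tail (Fin.tail y)) = K0 at hK0 ⊢
    generalize Wmat h (u 0) (y 0) = Wa at hWa hkey ⊢
    generalize Wmat h (u 1) (y 1) = Wb at hWb hkey ⊢
    generalize (if y 0 = 4 * u 1 + 1 - y 1 then (1 : ℝ) else 0) = ind at hkey ⊢
    have hR : Wa * K0 * (Wb * K0) / K0 = Wa * Wb * K0 := by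
      by_cases hz : K0 = 0
      · rw [hz]
        simp
      · field_simp
    rw [hR]
    calc 1 / 2 * (ind * (Wb * K0)) = (1 / 2 * (ind * Wb)) * K0 := by ring
      _ ≤ (Wa * Wb) * K0 := mul_le_mul_of_nonneg_right hkey hK0
  · -- not partners
    rw [if_neg hp, one_mul]
    have hp'' : u 0 ≠ u 1 + (h : ZMod (2 * h)) := by
      intro e
      apply hp
      rw [e]
      linear_combination -hh
    have hle1 : stepProb h (j + 2) u y ≤ stepProb h (j + 1) (Fin.tail u) (Fin.tail y) :=
      stepProb_tail_le h (j + 1) u y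
    have hle2 : stepProb h (j + 1) (Fin.tail u) (Fin.tail y)
        ≤ stepProb h j (Fin.tail (Fin.tail u)) (Fin.tail (Fin.tail y)) :=
      stepProb_tail_le h j (Fin.tail u) (Fin.tail y)
    have hprod : stepProb h (j + 2) u y
          * stepProb h j (Fin.tail (Fin.tail u)) (Fin.tail (Fin.tail y))
        = stepProb h (j + 1) (dropTwo u) (dropTwo y)
          * stepProb h (j + 1) (Fin.tail u) (Fin.tail y) := by
      by_cases hbad : ∃ i : Fin j, u i.succ.succ = u 0 + (h : ZMod (2 * h))
      · obtain ⟨i, hi⟩ := hbad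
        have hi' : u 0 = u i.succ.succ + (h : ZMod (2 * h)) := by
          rw [hi]
          linear_combination -hh
        have eF2 : stepProb h (j + 2) u y
            = (if y 0 = 4 * u i.succ.succ + 1 - y i.succ.succ then (1 : ℝ) else 0)
              * stepProb h (j + 1) (Fin.tail u) (Fin.tail y) :=
          forced h (j + 1) u y i.succ hi'
        have eFA : stepProb h (j + 1) (dropTwo u) (dropTwo y)
            = (if y 0 = 4 * u i.succ.succ + 1 - y i.succ.succ then (1 : ℝ) else 0)
              * stepProb h j (Fin.tail (Fin.tail u)) (Fin.tail (Fin.tail y)) :=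
          forced h j (dropTwo u) (dropTwo y) i hi'
        rw [eF2, eFA]
        ring
      · have hbad' : ∀ i : Fin j, u i.succ.succ ≠ u 0 + (h : ZMod (2 * h)) :=
          fun i e => hbad ⟨i, e⟩
        have nb2 : ¬ newBad h (j + 1) u := by
          refine not_newBad_of h (j + 1) u fun i => ?_
          refine Fin.cases ?_ (fun i' => ?_) i
          · exact ⟨h01, hp⟩
          · exact ⟨h0x i', hbad' i'⟩
        have nbA : ¬ newBad h j (dropTwo u) :=
          not_newBad_of h j (dropTwo u) fun i => ⟨h0x i, hbad' i⟩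
        have eN2 : stepProb h (j + 2) u y
            = Wmat h (u 0) (y 0) * stepProb h (j + 1) (Fin.tail u) (Fin.tail y) :=
          H34.step_new_free h (j + 1) u y nb2
        have eNA : stepProb h (j + 1) (dropTwo u) (dropTwo y)
            = Wmat h (u 0) (y 0)
              * stepProb h j (Fin.tail (Fin.tail u)) (Fin.tail (Fin.tail y)) :=
          H34.step_new_free h j (dropTwo u) (dropTwo y) nbA
        rw [eN2, eNA]
        ring
    generalize stepProb h j (Fin.tail (Fin.tail u)) (Fin.tail (Fin.tail y)) = K0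
      at hK0 hle2 hprod ⊢
    generalize stepProb h (j + 1) (Fin.tail u) (Fin.tail y) = KB at hle1 hle2 hprod ⊢
    generalize stepProb h (j + 1) (dropTwo u) (dropTwo y) = KA at hprod ⊢
    generalize stepProb h (j + 2) u y = K2 at hK2 hle1 hprod ⊢
    by_cases hz : K0 = 0
    · have hK2z : K2 = 0 := le_antisymm (by rw [← hz]; exact hle1.trans hle2) hK2
      rw [hz, hK2z, div_zero]
    · rw [← hprod, mul_div_assoc, div_self hz, mul_one]

theorem Q_merge (h j : ℕ) [NeZero h] (u : Fin (j + 2) → ZMod (2 * h))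
    (hu : Function.Injective u) (hp : u 1 = u 0 + (h : ZMod (2 * h))) :
    (1 / 2 : ℝ) ≤ ∑ v : Fin j → ZMod (2 * h), ∑ x : ZMod (2 * h),
      Qmat h j u (Fin.cons x (Fin.cons x v) : Fin (j + 2) → ZMod (2 * h)) := by
  have hh : (h : ZMod (2 * h)) + h = 0 := H36.half_add_half h
  have h0x : ∀ i : Fin j, u i.succ.succ ≠ u 0 := fun i e => Fin.succ_ne_zero _ (hu e)
  have h1x : ∀ i : Fin j, u i.succ.succ ≠ u 1 := fun i e => by
    have e' : i.succ.succ = (0 : Fin (j + 1)).succ := hu e
    exact Fin.succ_ne_zero i (Fin.succ_injective _ e')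
  have hp' : u 0 = u 1 + (h : ZMod (2 * h)) := by
    rw [hp]
    linear_combination -hh
  have h2 : 2 * u 1 = 2 * u 0 := by
    rw [hp]
    linear_combination hh
  have nbA : ¬ newBad h j (dropTwo u) := by
    refine not_newBad_of h j (dropTwo u) fun i => ⟨h0x i, ?_⟩
    show u i.succ.succ ≠ u 0 + (h : ZMod (2 * h))
    rw [← hp]
    exact h1x i
  have nbB : ¬ newBad h j (Fin.tail u) := by
    refine not_newBad_of h j (Fin.tail u) fun i => ⟨h1x i, ?_⟩
    show u i.succ.succ ≠ u 1 + (h : ZMod (2 * h))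
    rw [← hp']
    exact h0x i
  have hterm : ∀ (v : Fin j → ZMod (2 * h)) (x : ZMod (2 * h)),
      Qmat h j u (Fin.cons x (Fin.cons x v) : Fin (j + 2) → ZMod (2 * h))
        = Wmat h (u 0) x * Wmat h (u 0) x * stepProb h j (Fin.tail (Fin.tail u)) v := by
    intro v x
    have hQ : Qmat h j u (Fin.cons x (Fin.cons x v) : Fin (j + 2) → ZMod (2 * h))
        = stepProb h (j + 1) (dropTwo u) (Fin.cons x v)
          * stepProb h (j + 1) (Fin.tail u) (Fin.cons x v)
          / stepProb h j (Fin.tail (Fin.tail u)) v := rfl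
    have eA : stepProb h (j + 1) (dropTwo u) (Fin.cons x v)
        = Wmat h (u 0) x * stepProb h j (Fin.tail (Fin.tail u)) v :=
      H34.step_new_free h j (dropTwo u) (Fin.cons x v) nbA
    have eB : stepProb h (j + 1) (Fin.tail u) (Fin.cons x v)
        = Wmat h (u 1) x * stepProb h j (Fin.tail (Fin.tail u)) v :=
      H34.step_new_free h j (Fin.tail u) (Fin.cons x v) nbB
    rw [hQ, eA, eB, W_partner h (u 0) (u 1) x h2]
    generalize stepProb h j (Fin.tail (Fin.tail u)) v = K0
    generalize Wmat h (u 0) x = Wa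
    by_cases hz : K0 = 0
    · rw [hz]
      simp
    · field_simp
  have hsum1 : ∀ v : Fin j → ZMod (2 * h),
      ∑ x : ZMod (2 * h), (1 / 2 : ℝ) * Wmat h (u 0) x * stepProb h j (Fin.tail (Fin.tail u)) v
        = (1 / 2 : ℝ) * stepProb h j (Fin.tail (Fin.tail u)) v := by
    intro v
    rw [← Finset.sum_mul, ← Finset.mul_sum, W_sum, mul_one]
  calc (1 / 2 : ℝ) = ∑ v : Fin j → ZMod (2 * h),
        (1 / 2 : ℝ) * stepProb h j (Fin.tail (Fin.tail u)) v := by
        rw [← Finset.mul_sum, H95.stepProb_sum, mul_one]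
    _ = ∑ v : Fin j → ZMod (2 * h), ∑ x : ZMod (2 * h),
        (1 / 2 : ℝ) * Wmat h (u 0) x * stepProb h j (Fin.tail (Fin.tail u)) v :=
        Finset.sum_congr rfl fun v _ => (hsum1 v).symm
    _ ≤ ∑ v : Fin j → ZMod (2 * h), ∑ x : ZMod (2 * h),
        Qmat h j u (Fin.cons x (Fin.cons x v) : Fin (j + 2) → ZMod (2 * h)) := by
        refine Finset.sum_le_sum fun v _ => Finset.sum_le_sum fun x _ => ?_
        rw [hterm v x]
        exact mul_le_mul_of_nonneg_right (W_sq h (u 0) x) (H95.stepProb_nonneg h j _ _)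

end Vale.Agent.Lib.P162.H38CV7
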