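import Mathlib
import Vale.Agent.Lib.P162.Defs
import Vale.Agent.Lib.P162.RDefs
import Vale.Agent.Lib.P162.CVDefs
import Vale.Agent.Lib.P162.helper43.LumpTail
import Vale.Agent.Lib.P162.helper95.KmatBasic
import Vale.Agent.Lib.P162.helper36.MoveInj
import Vale.Agent.Lib.P162.helper23.ProdTv
import Vale.Agent.Lib.P162.helper93.Gap

/-!
P162, pool job CV1 (helper38, second copy): the two-walker kernel is a stochastic matrix, and
summing the one-step kernel over the start position of the new card gives the kernel of the old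
cards.
-/

namespace Vale.Agent.Lib.P162.H38CV

open Finset BigOperators
open Vale.Agent.Lib.P162

theorem step_sum_start (h j : ℕ) [NeZero h] (v : Fin j → ZMod (2 * h))
    (y : Fin (j + 1) → ZMod (2 * h)) :
    ∑ q : ZMod (2 * h), Kmat h (j + 1) (Fin.cons q v : Fin (j + 1) → ZMod (2 * h)) y
      = Kmat h j v (Fin.tail y) := by
  have hbij : ∀ c : ZMod h → Bool, Function.Bijective (move h c) := fun c =>
    ⟨H36.move_injective h c, Finite.injective_iff_surjective.1 (H36.move_injective h c)⟩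
  show ∑ q : ZMod (2 * h),
      ((univ.filter fun c : ZMod h → Bool =>
        ∀ i', move h c ((Fin.cons q v : Fin (j + 1) → ZMod (2 * h)) i') = y i').card : ℝ) / 2 ^ h
    = ((univ.filter fun c : ZMod h → Bool =>
        ∀ i, move h c (v i) = Fin.tail y i).card : ℝ) / 2 ^ h
  rw [← Finset.sum_div]
  congr 1
  rw [← Nat.cast_sum]
  congr 1
  rw [Finset.card_eq_sum_card_fiberwise
    (f := fun c : ZMod h → Bool => (Equiv.ofBijective (move h c) (hbij c)).symm (y 0))
    (s := univ.filter fun c : ZMod h → Bool => ∀ i, move h c (v i) = Fin.tail y i)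
    (t := (univ : Finset (ZMod (2 * h)))) (fun _ _ => Finset.mem_univ _)]
  refine Finset.sum_congr rfl fun q _ => ?_
  congr 1
  ext c
  rw [Finset.mem_filter, Finset.mem_filter, Finset.mem_filter]
  have key : (Equiv.ofBijective (move h c) (hbij c)).symm (y 0) = q ↔ move h c q = y 0 := by
    rw [Equiv.symm_apply_eq]
    constructor
    · intro h1
      exact h1.symm
    · intro h1
      exact h1.symm
  constructor
  · rintro ⟨hu, hc⟩
    refine ⟨⟨hu, fun i => ?_⟩, ?_⟩
    · have h1 := hc i.succ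
      rw [Fin.cons_succ] at h1
      exact h1
    · have h1 := hc 0
      rw [Fin.cons_zero] at h1
      exact key.2 h1
  · rintro ⟨⟨hu, hc⟩, h0⟩
    refine ⟨hu, fun i' => ?_⟩
    refine Fin.cases ?_ (fun i => ?_) i'
    · rw [Fin.cons_zero]
      exact key.1 h0
    · rw [Fin.cons_succ]
      exact hc i

theorem Qmat_nonneg (h j : ℕ) [NeZero h] (u y : Fin (j + 2) → ZMod (2 * h)) :
    0 ≤ Qmat h j u y := by
  rw [Qmat_apply]
  exact div_nonneg (mul_nonneg (H95.stepProb_nonneg h (j + 1) _ _)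
    (H95.stepProb_nonneg h (j + 1) _ _)) (H95.stepProb_nonneg h j _ _)

theorem Qmat_row_sum (h j : ℕ) [NeZero h] (u : Fin (j + 2) → ZMod (2 * h)) :
    ∑ y, Qmat h j u y = 1 := by
  have e1 : ∑ y : Fin (j + 2) → ZMod (2 * h), Qmat h j u y
      = ∑ q1 : ZMod (2 * h), ∑ q1' : ZMod (2 * h), ∑ v1 : Fin j → ZMod (2 * h),
          Qmat h j u (Fin.cons q1 (Fin.cons q1' v1)) := by
    rw [H23.sum_fin_succ_fun (j + 1) (fun y => Qmat h j u y)]
    refine Finset.sum_congr rfl fun q1 _ => ?_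
    exact H23.sum_fin_succ_fun j (fun y' => Qmat h j u (Fin.cons q1 y'))
  have e3 : (∑ q1 : ZMod (2 * h), ∑ q1' : ZMod (2 * h), ∑ v1 : Fin j → ZMod (2 * h),
          Qmat h j u (Fin.cons q1 (Fin.cons q1' v1)))
      = ∑ v1 : Fin j → ZMod (2 * h), ∑ q1 : ZMod (2 * h), ∑ q1' : ZMod (2 * h),
          Qmat h j u (Fin.cons q1 (Fin.cons q1' v1)) :=
    (Finset.sum_congr rfl fun q1 _ => Finset.sum_comm).trans Finset.sum_comm
  have e4 : ∀ v1 : Fin j → ZMod (2 * h),
      ∑ q1 : ZMod (2 * h), ∑ q1' : ZMod (2 * h), Qmat h j u (Fin.cons q1 (Fin.cons q1' v1))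
        = Kmat h j (Fin.tail (Fin.tail u)) v1 := by
    intro v1
    have hA : ∑ q1 : ZMod (2 * h), Kmat h (j + 1) (dropTwo u) (Fin.cons q1 v1)
        = Kmat h j (Fin.tail (Fin.tail u)) v1 := H43.step_tail h j (dropTwo u) v1
    have hB : ∑ q1' : ZMod (2 * h), Kmat h (j + 1) (Fin.tail u) (Fin.cons q1' v1)
        = Kmat h j (Fin.tail (Fin.tail u)) v1 := H43.step_tail h j (Fin.tail u) v1
    calc ∑ q1 : ZMod (2 * h), ∑ q1' : ZMod (2 * h), Qmat h j u (Fin.cons q1 (Fin.cons q1' v1))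
        = ∑ q1 : ZMod (2 * h), ∑ q1' : ZMod (2 * h),
            Kmat h (j + 1) (dropTwo u) (Fin.cons q1 v1)
              * Kmat h (j + 1) (Fin.tail u) (Fin.cons q1' v1)
              / Kmat h j (Fin.tail (Fin.tail u)) v1 := rfl
      _ = (∑ q1 : ZMod (2 * h), Kmat h (j + 1) (dropTwo u) (Fin.cons q1 v1))
            * (∑ q1' : ZMod (2 * h), Kmat h (j + 1) (Fin.tail u) (Fin.cons q1' v1))
              / Kmat h j (Fin.tail (Fin.tail u)) v1 := by
          rw [Finset.sum_mul_sum, Finset.sum_div]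
          refine Finset.sum_congr rfl fun q1 _ => ?_
          rw [Finset.sum_div]
      _ = Kmat h j (Fin.tail (Fin.tail u)) v1 := by
          rw [hA, hB, mul_self_div_self]
  rw [e1, e3, Finset.sum_congr rfl (fun v1 _ => e4 v1)]
  exact H95.stepProb_sum h j (Fin.tail (Fin.tail u))

theorem Qpow_nonneg (h j : ℕ) [NeZero h] (t : ℕ) (u y : Fin (j + 2) → ZMod (2 * h)) :
    0 ≤ (Qmat h j ^ t) u y :=
  H93.H93_pow_nonneg (Qmat h j) (Qmat_nonneg h j) t u y

theorem Qpow_row_sum (h j : ℕ) [NeZero h] (t : ℕ) (u : Fin (j + 2) → ZMod (2 * h)) :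
    ∑ y, (Qmat h j ^ t) u y = 1 :=
  H93.H93_pow_rowsum (Qmat h j) (Qmat_row_sum h j) t u

end Vale.Agent.Lib.P162.H38CV
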